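import Crest.Agent.Helper82.Shuffle.SymDefs

/-!
# S0222 (Thorp shuffle) — pre-build of GAP, Lemma A, leaf (L2) of the symbol identity (helper72)

`l2Stmt : L2Stmt ι` (shape fixed in `Crest/Agent/Helper82/Shuffle/SymDefs.lean`): for a function
`u` of the top row (bottom-row invariant), `Z ⊆ W` and `y` injective on `Z`,

  `(M.descFactorial |Z|) * dot u (eMix W Z y) = dot u (eBot W Z y)`,   `M = card ι`.

Proof.  Pointwise `eBot W Z y c = ∑ y' ∈ relab Z y, eMix W Z y' c` (the cards of `Z` sit in the
bottom row iff they sit at the bottom places of exactly one relabelling `y'` of `y` on `Z`);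
`eMix W Z y'` vanishes unless `y'` is injective on `Z`; for the injective relabellings the value
`dot u (eMix W Z y')` does not depend on `y'` (re-index the sum by a permutation of the bottom
row); and there are `M.descFactorial |Z|` injective relabellings.
-/

set_option autoImplicit false

namespace Crest.Agent.Helper72.ShuffleL2

open Finset Crest.Agent.Helper13.Gap Crest.Agent.Helper82.Shuffle

variable {ι : Type*} [Fintype ι] [DecidableEq ι]

theorem mem_relab {Z : Finset (ι × Bool)} {y y' : ι × Bool → ι} :
    y' ∈ relab Z y ↔ ∀ w, w ∉ Z → y' w = y w := by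
  simp [relab]

/-- Two maps which are injective on a finite set differ there by a permutation of the target. -/
theorem exists_perm_extend {κ : Type*} (Z : Finset κ) (y y' : κ → ι)
    (hy : Set.InjOn y (Z : Set κ)) (hy' : Set.InjOn y' (Z : Set κ)) :
    ∃ σ : Equiv.Perm ι, ∀ w ∈ Z, σ (y w) = y' w := by
  classical
  let f : ι → ι := fun i => if h : ∃ w ∈ Z, y w = i then y' (Classical.choose h) else i
  have hf : ∀ w ∈ Z, f (y w) = y' w := by
    intro w hw
    have h : ∃ w' ∈ Z, y w' = y w := ⟨w, hw, rfl⟩
    have hc := Classical.choose_spec h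
    have : Classical.choose h = w := hy hc.1 hw hc.2
    simp only [f, dif_pos h, this]
  have hinj : Set.InjOn f ((Z.image y : Finset ι) : Set ι) := by
    intro i hi j hj hij
    rw [Finset.mem_coe, Finset.mem_image] at hi hj
    obtain ⟨w1, hw1, rfl⟩ := hi
    obtain ⟨w2, hw2, rfl⟩ := hj
    rw [hf w1 hw1, hf w2 hw2] at hij
    rw [hy' hw1 hw2 hij]
  obtain ⟨g, hg⟩ := Finset.exists_equiv_extend_of_card_eq (t := (Finset.univ : Finset ι))
    (Finset.card_univ).symm (s := Z.image y) (f := f) (Finset.subset_univ _) hinj
  refine ⟨g.trans (Equiv.subtypeUnivEquiv (fun x => Finset.mem_univ x)), ?_⟩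
  intro w hw
  have h1 := hg (y w) (Finset.mem_image_of_mem y hw)
  rw [hf w hw] at h1
  simpa using h1

/-- Re-indexing by a permutation of the bottom row turns one relabelling into another. -/
theorem eMix_mul_rowsE (W Z : Finset (ι × Bool)) (y y' : ι × Bool → ι) (σ : Equiv.Perm ι)
    (hσ : ∀ w ∈ Z, σ (y w) = y' w) (hoff : ∀ w, w ∉ Z → y' w = y w)
    (c : Equiv.Perm (ι × Bool)) :
    eMix W Z y (c * rowsE 1 σ) = eMix W Z y' c := by
  have key : ∀ w, (c * rowsE 1 σ) (y w, decide (w ∈ Z)) = c (y' w, decide (w ∈ Z)) := by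
    intro w
    by_cases hz : w ∈ Z
    · simp [Equiv.Perm.mul_apply, hz, hσ w hz]
    · simp [Equiv.Perm.mul_apply, hz, hoff w hz]
  unfold eMix
  simp only [key]

/-- For a bottom-invariant `u` the value `dot u (eMix W Z y')` is the same for all relabellings
`y'` of `y` on `Z` which are injective on `Z`. -/
theorem dot_eMix_relab (u : Equiv.Perm (ι × Bool) → ℝ) (hu : BotInv u)
    (W Z : Finset (ι × Bool)) (y y' : ι × Bool → ι) (hoff : ∀ w, w ∉ Z → y' w = y w)
    (hy : Set.InjOn y (Z : Set (ι × Bool))) (hy' : Set.InjOn y' (Z : Set (ι × Bool))) :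
    dot u (eMix W Z y') = dot u (eMix W Z y) := by
  obtain ⟨σ, hσ⟩ := exists_perm_extend Z y y' hy hy'
  unfold dot
  rw [← Equiv.sum_comp (Equiv.mulRight (rowsE 1 σ)) (fun c => u c * eMix W Z y c)]
  apply Finset.sum_congr rfl
  intro c _
  simp only [Equiv.coe_mulRight]
  rw [hu σ c, eMix_mul_rowsE W Z y y' σ hσ hoff c]

/-- `eMix W Z y'` vanishes unless `y'` is injective on `Z`. -/
theorem eMix_eq_zero_of_not_injOn (W Z : Finset (ι × Bool)) (y' : ι × Bool → ι) (hZW : Z ⊆ W)
    (hni : ¬ Set.InjOn y' (Z : Set (ι × Bool))) (c : Equiv.Perm (ι × Bool)) :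
    eMix W Z y' c = 0 := by
  unfold eMix
  rw [if_neg]
  intro h
  apply hni
  intro w1 hw1 w2 hw2 h12
  have hw1' : w1 ∈ Z := Finset.mem_coe.1 hw1
  have hw2' : w2 ∈ Z := Finset.mem_coe.1 hw2
  have e1 := h w1 (hZW hw1')
  have e2 := h w2 (hZW hw2')
  simp only [hw1', hw2', decide_true] at e1 e2
  rw [← e1, ← e2, h12]

/-- Pointwise decomposition of `eBot` over the relabellings. -/
theorem eBot_eq_sum_eMix (W Z : Finset (ι × Bool)) (y : ι × Bool → ι) (hZW : Z ⊆ W)
    (c : Equiv.Perm (ι × Bool)) :
    eBot W Z y c = ∑ y' ∈ relab Z y, eMix W Z y' c := by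
  classical
  by_cases hT : ∀ w ∈ W \ Z, c (y w, false) = w
  · by_cases hB : ∀ w ∈ Z, (c.symm w).2 = true
    · have h1 : eBot W Z y c = 1 := by
        unfold eBot
        rw [if_pos ⟨hT, hB⟩]
      let y0 : ι × Bool → ι := fun w => if w ∈ Z then (c.symm w).1 else y w
      have hy0 : y0 ∈ relab Z y := by
        rw [mem_relab]
        intro w hw
        simp only [y0, if_neg hw]
      rw [h1, Finset.sum_eq_single y0]
      · unfold eMix
        rw [if_pos]
        intro w hw
        by_cases hz : w ∈ Z
        · have hb := hB w hz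
          have hpos : (y0 w, decide (w ∈ Z)) = c.symm w := by
            simp only [y0, if_pos hz, hz, decide_true]
            exact Prod.ext rfl hb.symm
          rw [hpos]
          simp
        · have ht := hT w (Finset.mem_sdiff.2 ⟨hw, hz⟩)
          simp only [y0, if_neg hz, hz, decide_false]
          exact ht
      · intro y' hy' hne
        unfold eMix
        rw [if_neg]
        intro h
        apply hne
        funext w
        by_cases hz : w ∈ Z
        · have e1 := h w (hZW hz)
          simp only [hz, decide_true] at e1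
          have e2 : c.symm w = (y' w, true) := by
            rw [Equiv.symm_apply_eq]
            exact e1.symm
          simp only [y0, if_pos hz, e2]
        · have e1 : y' w = y w := (mem_relab.1 hy') w hz
          simp only [y0, if_neg hz, e1]
      · intro h
        exact absurd hy0 h
    · have h1 : eBot W Z y c = 0 := by
        unfold eBot
        rw [if_neg]
        exact fun h => hB h.2
      rw [h1]
      symm
      apply Finset.sum_eq_zero
      intro y' _
      unfold eMix
      rw [if_neg]
      intro h
      apply hB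
      intro w hz
      have e1 := h w (hZW hz)
      simp only [hz, decide_true] at e1
      have e2 : c.symm w = (y' w, true) := by
        rw [Equiv.symm_apply_eq]
        exact e1.symm
      rw [e2]
  · have h1 : eBot W Z y c = 0 := by
      unfold eBot
      rw [if_neg]
      exact fun h => hT h.1
    rw [h1]
    symm
    apply Finset.sum_eq_zero
    intro y' hy'
    unfold eMix
    rw [if_neg]
    intro h
    apply hT
    intro w hw
    have hw' := Finset.mem_sdiff.1 hw
    have e1 := h w hw'.1
    have e2 : y' w = y w := (mem_relab.1 hy') w hw'.2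
    simp only [hw'.2, decide_false, e2] at e1
    exact e1

/-- The number of relabellings of `y` on `Z` which are injective on `Z`. -/
theorem card_relab_injOn (Z : Finset (ι × Bool)) (y : ι × Bool → ι)
    [DecidablePred fun y' : ι × Bool → ι => Set.InjOn y' (Z : Set (ι × Bool))] :
    ((relab Z y).filter (fun y' => Set.InjOn y' (Z : Set (ι × Bool)))).card
      = (Fintype.card ι).descFactorial Z.card := by
  classical
  rw [← Fintype.card_coe Z, ← Fintype.card_embedding_eq]
  apply Finset.card_eq_of_equiv_fintype
  refine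
    { toFun := fun p => ⟨fun w => p.1 w.1, fun a b hab =>
        Subtype.ext ((Finset.mem_filter.1 p.2).2 a.2 b.2 hab)⟩
      invFun := fun emb => ⟨fun w => if h : w ∈ Z then emb ⟨w, h⟩ else y w, ?_⟩
      left_inv := ?_
      right_inv := ?_ }
  · rw [Finset.mem_filter, mem_relab]
    refine ⟨fun w hw => by simp only [dif_neg hw], ?_⟩
    intro a ha b hb hab
    have ha' : a ∈ Z := Finset.mem_coe.1 ha
    have hb' : b ∈ Z := Finset.mem_coe.1 hb
    simp only [dif_pos ha', dif_pos hb'] at hab
    have := emb.injective hab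
    exact congrArg Subtype.val this
  · rintro ⟨y', hy'⟩
    apply Subtype.ext
    funext w
    by_cases hz : w ∈ Z
    · simp only [dif_pos hz]
      rfl
    · have := (mem_relab.1 (Finset.mem_filter.1 hy').1) w hz
      simp only [dif_neg hz, this]
  · intro emb
    ext w
    simp

/-- **Leaf (L2).** -/
theorem l2Stmt (ι : Type*) [Fintype ι] [DecidableEq ι] : L2Stmt ι := by
  classical
  intro u hu W Z y hZW hy
  have h1 : dot u (eBot W Z y) = ∑ y' ∈ relab Z y, dot u (eMix W Z y') := by
    unfold dot
    rw [Finset.sum_comm]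
    apply Finset.sum_congr rfl
    intro c _
    rw [eBot_eq_sum_eMix W Z y hZW c, Finset.mul_sum]
  rw [h1, ← Finset.sum_filter_add_sum_filter_not (relab Z y)
    (fun y' => Set.InjOn y' (Z : Set (ι × Bool)))]
  have h2 : ∑ y' ∈ (relab Z y).filter (fun y' => ¬ Set.InjOn y' (Z : Set (ι × Bool))),
      dot u (eMix W Z y') = 0 := by
    apply Finset.sum_eq_zero
    intro y' hy'
    have hni := (Finset.mem_filter.1 hy').2
    unfold dot
    apply Finset.sum_eq_zero
    intro c _
    rw [eMix_eq_zero_of_not_injOn W Z y' hZW hni c, mul_zero]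
  have h3 : ∑ y' ∈ (relab Z y).filter (fun y' => Set.InjOn y' (Z : Set (ι × Bool))),
      dot u (eMix W Z y')
      = ∑ _y' ∈ (relab Z y).filter (fun y' => Set.InjOn y' (Z : Set (ι × Bool))),
          dot u (eMix W Z y) := by
    apply Finset.sum_congr rfl
    intro y' hy'
    obtain ⟨hrel, hinj⟩ := Finset.mem_filter.1 hy'
    exact dot_eMix_relab u hu W Z y y' (mem_relab.1 hrel) hy hinj
  rw [h2, h3, add_zero, Finset.sum_const, card_relab_injOn, nsmul_eq_mul]

end Crest.Agent.Helper72.ShuffleL2
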