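import Mathlib

/-!
# S0222 (Thorp shuffle) — pre-build of GAP, Lemma A: abstract spectral transfer (helper72)

Nothing here is about the shuffle itself.  This Mathlib-only file supplies the abstract
linear-algebra steps of `notes/s0222/helper82_gap_proof.md` ("eigenvalue transfer" from the
operator `Q` on functions on injections to the symbols `Θ_k`), in a form which needs no
eigenvectors and no spectral theorem.

Throughout `X`, `B` are finite types, `dot f g = ∑ x, f x * g x`, and `Symm Q` says that the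
(not necessarily linear) map `Q : (X → ℝ) → (X → ℝ)` is symmetric for `dot`.

* `power_trick`            : `(dot u (Q u))^(2^n) ≤ (dot u u)^(2^n-1) * dot u (Q^[2^n] u)`.
* `quad_le_of_pow_bound`   : if `dot u (Q^[L] u) ≤ C * θ^L` for all `L`, then
                             `dot u (Q u) ≤ θ * dot u u`.
* `norm_bound_of_quad_bound`, `iterate_norm_bound` : for a symmetric linear `Θ`,
                             `|dot b (Θ b)| ≤ θ * dot b b` for all `b` implies
                             `dot (Θ^[L] b) (Θ^[L] b) ≤ θ^(2L) * dot b b`.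
* `symbol_transfer`        : the symbol identity `b_{Q u} = Θ b_u` on a `Q`-stable class of
                             vectors lying in the span of the family `e` gives
                             `dot u (Q u) ≤ θ * dot u u` there.
* `exists_orth_decomp`     : orthogonal splitting along a submodule of `X → ℝ`.
* `quad_le_of_filtration`  : induction along a `Q`-invariant filtration.
* `lemmaA_schema`          : the combination used for Lemma A.
-/

set_option autoImplicit false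

namespace Crest.Agent.Helper72.Shuffle

open Finset

variable {X : Type*} [Fintype X]

/-- The dot product of two real functions on a finite type. -/
def dot (f g : X → ℝ) : ℝ := ∑ x, f x * g x

theorem dot_comm (f g : X → ℝ) : dot f g = dot g f := by
  unfold dot
  exact Finset.sum_congr rfl (fun x _ => mul_comm _ _)

theorem dot_self_nonneg (f : X → ℝ) : 0 ≤ dot f f :=
  Finset.sum_nonneg (fun _ _ => mul_self_nonneg _)

theorem dot_self_eq_zero {f : X → ℝ} : dot f f = 0 ↔ f = 0 := by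
  constructor
  · intro h
    funext x
    have h1 := (Finset.sum_eq_zero_iff_of_nonneg
      (fun y (_ : y ∈ (Finset.univ : Finset X)) => mul_self_nonneg (f y))).1 h x (Finset.mem_univ x)
    exact mul_self_eq_zero.1 h1
  · rintro rfl
    simp [dot]

theorem dot_add_left (f g h : X → ℝ) : dot (f + g) h = dot f h + dot g h := by
  unfold dot
  rw [← Finset.sum_add_distrib]
  exact Finset.sum_congr rfl (fun x _ => by simp [add_mul])

theorem dot_add_right (f g h : X → ℝ) : dot f (g + h) = dot f g + dot f h := by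
  rw [dot_comm, dot_add_left, dot_comm g, dot_comm h]

theorem dot_sub_left (f g h : X → ℝ) : dot (f - g) h = dot f h - dot g h := by
  unfold dot
  rw [← Finset.sum_sub_distrib]
  exact Finset.sum_congr rfl (fun x _ => by simp [sub_mul])

theorem dot_sub_right (f g h : X → ℝ) : dot f (g - h) = dot f g - dot f h := by
  rw [dot_comm, dot_sub_left, dot_comm g, dot_comm h]

theorem dot_smul_left (c : ℝ) (f g : X → ℝ) : dot (c • f) g = c * dot f g := by
  unfold dot
  rw [Finset.mul_sum]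
  exact Finset.sum_congr rfl (fun x _ => by simp [mul_assoc])

theorem dot_smul_right (c : ℝ) (f g : X → ℝ) : dot f (c • g) = c * dot f g := by
  rw [dot_comm, dot_smul_left, dot_comm]

@[simp] theorem dot_zero_left (g : X → ℝ) : dot (0 : X → ℝ) g = 0 := by simp [dot]

@[simp] theorem dot_zero_right (f : X → ℝ) : dot f (0 : X → ℝ) = 0 := by simp [dot]

/-- Cauchy–Schwarz. -/
theorem dot_sq_le (f g : X → ℝ) : (dot f g) ^ 2 ≤ dot f f * dot g g := by
  unfold dot
  have h := Finset.sum_mul_sq_le_sq_mul_sq (Finset.univ : Finset X) f g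
  calc (∑ x, f x * g x) ^ 2 ≤ (∑ x, f x ^ 2) * ∑ x, g x ^ 2 := h
    _ = (∑ x, f x * f x) * ∑ x, g x * g x := by simp only [sq]

/-- Expansion of `dot` against a linear combination `∑ β, coef β * e β x`. -/
theorem dot_sum_left {B : Type*} [Fintype B] (coef : B → ℝ) (e : B → X → ℝ) (v : X → ℝ) :
    dot (fun x => ∑ β, coef β * e β x) v = ∑ β, coef β * dot (e β) v := by
  unfold dot
  simp only [Finset.sum_mul, Finset.mul_sum]
  rw [Finset.sum_comm]
  exact Finset.sum_congr rfl (fun β _ => Finset.sum_congr rfl (fun x _ => by ring))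

/-- Symmetry of a map on functions with respect to `dot`. -/
def Symm (Q : (X → ℝ) → (X → ℝ)) : Prop := ∀ f g, dot (Q f) g = dot f (Q g)

theorem Symm.iterate {Q : (X → ℝ) → (X → ℝ)} (hQ : Symm Q) (n : ℕ) : Symm (Q^[n]) := by
  induction n with
  | zero => intro f g; rfl
  | succ n ih =>
    intro f g
    rw [Function.iterate_succ_apply, ih, hQ, ← Function.iterate_succ_apply' Q n g]

theorem dot_iterate_double {Q : (X → ℝ) → (X → ℝ)} (hQ : Symm Q) (u : X → ℝ) (m : ℕ) :
    dot u (Q^[2 * m] u) = dot (Q^[m] u) (Q^[m] u) := by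
  rw [two_mul, Function.iterate_add_apply, (hQ.iterate m) u (Q^[m] u)]

theorem dot_iterate_sq_le {Q : (X → ℝ) → (X → ℝ)} (hQ : Symm Q) (u : X → ℝ) (m : ℕ) :
    (dot u (Q^[m] u)) ^ 2 ≤ dot u u * dot u (Q^[2 * m] u) := by
  rw [dot_iterate_double hQ]
  exact dot_sq_le _ _

theorem dot_iterate_even_nonneg {Q : (X → ℝ) → (X → ℝ)} (hQ : Symm Q) (u : X → ℝ) (m : ℕ) :
    0 ≤ dot u (Q^[2 * m] u) := by
  rw [dot_iterate_double hQ]
  exact dot_self_nonneg _

/-- **Power trick** (successor form). -/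
theorem power_trick_succ {Q : (X → ℝ) → (X → ℝ)} (hQ : Symm Q) (u : X → ℝ) (n : ℕ) :
    (dot u (Q u)) ^ (2 ^ (n + 1)) ≤
      (dot u u) ^ (2 ^ (n + 1) - 1) * dot u (Q^[2 ^ (n + 1)] u) := by
  induction n with
  | zero =>
    have h := dot_iterate_sq_le hQ u 1
    simpa using h
  | succ n ih =>
    have hb0 : 0 ≤ dot u u := dot_self_nonneg u
    have hpos : 0 ≤ (dot u (Q u)) ^ (2 ^ (n + 1)) := by
      have : (2 : ℕ) ^ (n + 1) = 2 * 2 ^ n := by rw [pow_succ]; ring
      rw [this, pow_mul]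
      positivity
    have hsq := dot_iterate_sq_le hQ u (2 ^ (n + 1))
    have h2 : (2 : ℕ) * 2 ^ (n + 1) = 2 ^ (n + 1 + 1) := by rw [pow_succ 2 (n + 1)]; ring
    rw [h2] at hsq
    have hexp : (2 : ℕ) ^ (n + 1 + 1) - 1 = 2 * (2 ^ (n + 1) - 1) + 1 := by
      have h1 : 1 ≤ (2 : ℕ) ^ (n + 1) := Nat.one_le_two_pow
      rw [pow_succ 2 (n + 1)]
      omega
    have hexp2 : (2 : ℕ) ^ (n + 1 + 1) = 2 ^ (n + 1) * 2 := by rw [pow_succ]
    have hc : 0 ≤ dot u (Q^[2 ^ (n + 1)] u) := by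
      have : (2 : ℕ) ^ (n + 1) = 2 * 2 ^ n := by rw [pow_succ]; ring
      rw [this]
      exact dot_iterate_even_nonneg hQ u _
    have hA : 0 ≤ (dot u u) ^ (2 ^ (n + 1) - 1) := pow_nonneg hb0 _
    calc (dot u (Q u)) ^ (2 ^ (n + 1 + 1))
        = ((dot u (Q u)) ^ (2 ^ (n + 1))) ^ 2 := by rw [hexp2, pow_mul]
      _ ≤ ((dot u u) ^ (2 ^ (n + 1) - 1) * dot u (Q^[2 ^ (n + 1)] u)) ^ 2 :=
          pow_le_pow_left₀ hpos ih 2
      _ = ((dot u u) ^ (2 ^ (n + 1) - 1)) ^ 2 * (dot u (Q^[2 ^ (n + 1)] u)) ^ 2 := by ring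
      _ ≤ ((dot u u) ^ (2 ^ (n + 1) - 1)) ^ 2 * (dot u u * dot u (Q^[2 ^ (n + 1 + 1)] u)) :=
          mul_le_mul_of_nonneg_left hsq (by positivity)
      _ = (dot u u) ^ (2 ^ (n + 1 + 1) - 1) * dot u (Q^[2 ^ (n + 1 + 1)] u) := by
          have hpw : (dot u u) ^ (2 * (2 ^ (n + 1) - 1) + 1)
              = ((dot u u) ^ (2 ^ (n + 1) - 1)) ^ 2 * dot u u := by
            rw [pow_succ, pow_mul']
          rw [hexp, hpw]
          ring

/-- **Power trick**: `⟨u, Q u⟩^(2^n) ≤ ⟨u, u⟩^(2^n - 1) ⟨u, Q^(2^n) u⟩` for symmetric `Q`. -/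
theorem power_trick {Q : (X → ℝ) → (X → ℝ)} (hQ : Symm Q) (u : X → ℝ) (n : ℕ) :
    (dot u (Q u)) ^ (2 ^ n) ≤ (dot u u) ^ (2 ^ n - 1) * dot u (Q^[2 ^ n] u) := by
  cases n with
  | zero => simp
  | succ n => exact power_trick_succ hQ u n

/-- If `⟨u, Q^L u⟩ ≤ C θ^L` for all `L` (with `C` independent of `L`) then
`⟨u, Q u⟩ ≤ θ ⟨u, u⟩`: no constant is lost. -/
theorem quad_le_of_pow_bound {Q : (X → ℝ) → (X → ℝ)} (hQ : Symm Q) (u : X → ℝ) (θ C : ℝ)
    (hθ : 0 ≤ θ) (h : ∀ L : ℕ, dot u (Q^[L] u) ≤ C * θ ^ L) :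
    dot u (Q u) ≤ θ * dot u u := by
  have hb0 : 0 ≤ dot u u := dot_self_nonneg u
  rcases hb0.eq_or_lt with h0 | hpos
  · have hu : u = 0 := dot_self_eq_zero.1 h0.symm
    rw [hu]
    simp
  · by_contra hcon
    rw [not_le] at hcon
    set a := dot u (Q u) with ha
    set b0 := dot u u with hb
    have hy0 : 0 ≤ θ * b0 := mul_nonneg hθ hb0
    have hapos : 0 < a := lt_of_le_of_lt hy0 hcon
    have hC : b0 ≤ C := by
      have := h 0
      simpa using this
    have hCpos : 0 < C := lt_of_lt_of_le hpos hC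
    -- the key family of inequalities
    have key : ∀ n : ℕ, b0 * a ^ (2 ^ n) ≤ C * (θ * b0) ^ (2 ^ n) := by
      intro n
      have h1 := power_trick hQ u n
      have h2 := h (2 ^ n)
      have h3 : b0 ^ (2 ^ n - 1) * dot u (Q^[2 ^ n] u) ≤ b0 ^ (2 ^ n - 1) * (C * θ ^ (2 ^ n)) :=
        mul_le_mul_of_nonneg_left h2 (pow_nonneg hb0 _)
      have h4 : b0 * b0 ^ (2 ^ n - 1) = b0 ^ (2 ^ n) := by
        have : 2 ^ n = (2 ^ n - 1) + 1 := by
          have : 1 ≤ 2 ^ n := Nat.one_le_two_pow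
          omega
        conv_rhs => rw [this, pow_succ]
        ring
      calc b0 * a ^ (2 ^ n) ≤ b0 * (b0 ^ (2 ^ n - 1) * (C * θ ^ (2 ^ n))) :=
            mul_le_mul_of_nonneg_left (le_trans h1 h3) hb0
        _ = C * (b0 * b0 ^ (2 ^ n - 1)) * θ ^ (2 ^ n) := by ring
        _ = C * (θ * b0) ^ (2 ^ n) := by rw [h4, mul_pow]; ring
    rcases hy0.eq_or_lt with hy | hy
    · have := key 0
      rw [← hy] at this
      simp at this
      nlinarith
    · -- ratio argument
      set ρ := a / (θ * b0) with hρ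
      have hρ1 : 1 < ρ := by
        rw [hρ, one_lt_div hy]
        exact hcon
      obtain ⟨N, hN⟩ := pow_unbounded_of_one_lt (C / b0) hρ1
      have hle : ρ ^ N ≤ ρ ^ (2 ^ N) :=
        pow_le_pow_right₀ hρ1.le (Nat.lt_two_pow_self).le
      have hbound : ρ ^ (2 ^ N) ≤ C / b0 := by
        rw [hρ, div_pow, div_le_div_iff₀ (pow_pos hy _) hpos]
        have := key N
        linarith
      linarith

/-! ### Quadratic-form bound ⇒ norm bound (symmetric linear maps) -/

section Symbol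

variable {B : Type*} [Fintype B]

/-- For a symmetric linear `Θ`, a bound on the quadratic form gives the same bound on the norm:
`|⟨b, Θ b⟩| ≤ θ ⟨b, b⟩` for all `b` implies `⟨Θ b, Θ b⟩ ≤ θ² ⟨b, b⟩` (polarisation). -/
theorem norm_bound_of_quad_bound (Θ : (B → ℝ) →ₗ[ℝ] (B → ℝ)) (hΘ : Symm (⇑Θ)) (θ : ℝ)
    (hθ : 0 ≤ θ) (hq : ∀ b : B → ℝ, |dot b (Θ b)| ≤ θ * dot b b) (b : B → ℝ) :
    dot (Θ b) (Θ b) ≤ θ ^ 2 * dot b b := by
  set w := Θ b with hw
  set a := dot b b with ha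
  set c := dot w w with hc
  have hc0 : 0 ≤ c := dot_self_nonneg w
  -- polarisation with `p = θ • b + w`, `m = θ • b - w`
  have hp := hq (θ • b + w)
  have hm := hq (θ • b - w)
  have hΘp : Θ (θ • b + w) = θ • w + Θ w := by
    rw [map_add, map_smul]
  have hΘm : Θ (θ • b - w) = θ • w - Θ w := by
    rw [map_sub, map_smul]
  have hsym : dot b (Θ w) = c := by
    rw [← hΘ b w]
  have hsym' : dot w (Θ w) = dot (Θ w) w := dot_comm _ _
  have e1 : dot (θ • b + w) (Θ (θ • b + w))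
      = θ ^ 2 * dot b w + θ * c + θ * c + dot w (Θ w) := by
    rw [hΘp, dot_add_left, dot_add_right, dot_add_right, dot_smul_left, dot_smul_left,
      dot_smul_right, dot_smul_right, hsym]
    ring
  have e2 : dot (θ • b - w) (Θ (θ • b - w))
      = θ ^ 2 * dot b w - θ * c - θ * c + dot w (Θ w) := by
    rw [hΘm, dot_sub_left, dot_sub_right, dot_sub_right, dot_smul_left, dot_smul_left,
      dot_smul_right, dot_smul_right, hsym]
    ring
  have n1 : dot (θ • b + w) (θ • b + w) = θ ^ 2 * a + 2 * θ * dot b w + c := by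
    rw [dot_add_left, dot_add_right, dot_add_right, dot_smul_left, dot_smul_left,
      dot_smul_right, dot_smul_right, dot_comm w b]
    ring
  have n2 : dot (θ • b - w) (θ • b - w) = θ ^ 2 * a - 2 * θ * dot b w + c := by
    rw [dot_sub_left, dot_sub_right, dot_sub_right, dot_smul_left, dot_smul_left,
      dot_smul_right, dot_smul_right, dot_comm w b]
    ring
  rw [e1, n1] at hp
  rw [e2, n2] at hm
  have hp' := (abs_le.1 hp).2
  have hm' := (abs_le.1 hm).1
  -- 4 θ c ≤ θ (2 θ² a + 2 c)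
  have hmain : 2 * θ * c ≤ θ * (θ ^ 2 * a + c) := by nlinarith
  rcases hθ.eq_or_lt with h0 | hpos
  · -- θ = 0: the quadratic form vanishes identically, so `c = 0`
    have hq0 : ∀ v : B → ℝ, dot v (Θ v) = 0 := by
      intro v
      have := hq v
      rw [← h0, zero_mul] at this
      exact abs_nonpos_iff.1 this
    have h1 := hq0 (b + w)
    have h2 := hq0 (b - w)
    have hΘb : Θ b = w := rfl
    have hcw : dot w w = c := rfl
    have f1 : dot (b + w) (Θ (b + w)) = dot b w + c + c + dot w (Θ w) := by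
      rw [map_add, hΘb, dot_add_left, dot_add_right, dot_add_right, hsym, hcw]
      ring
    have f2 : dot (b - w) (Θ (b - w)) = dot b w - c - c + dot w (Θ w) := by
      rw [map_sub, hΘb, dot_sub_left, dot_sub_right, dot_sub_right, hsym, hcw]
      ring
    rw [f1] at h1
    rw [f2] at h2
    have : c = 0 := by linarith
    rw [this, ← h0]
    simp
  · have : 2 * c ≤ θ ^ 2 * a + c := by
      have h3 : θ * (2 * c) ≤ θ * (θ ^ 2 * a + c) := by linarith
      exact le_of_mul_le_mul_left h3 hpos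
    linarith

/-- Iterated form of `norm_bound_of_quad_bound`. -/
theorem iterate_norm_bound (Θ : (B → ℝ) →ₗ[ℝ] (B → ℝ)) (hΘ : Symm (⇑Θ)) (θ : ℝ)
    (hθ : 0 ≤ θ) (hq : ∀ b : B → ℝ, |dot b (Θ b)| ≤ θ * dot b b) (b : B → ℝ) (L : ℕ) :
    dot ((⇑Θ)^[L] b) ((⇑Θ)^[L] b) ≤ θ ^ (2 * L) * dot b b := by
  induction L with
  | zero => simp
  | succ L ih =>
    rw [Function.iterate_succ_apply']
    have h1 := norm_bound_of_quad_bound Θ hΘ θ hθ hq ((⇑Θ)^[L] b)
    have h2 : θ ^ 2 * dot ((⇑Θ)^[L] b) ((⇑Θ)^[L] b) ≤ θ ^ 2 * (θ ^ (2 * L) * dot b b) :=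
      mul_le_mul_of_nonneg_left ih (by positivity)
    calc dot (Θ ((⇑Θ)^[L] b)) (Θ ((⇑Θ)^[L] b))
        ≤ θ ^ 2 * dot ((⇑Θ)^[L] b) ((⇑Θ)^[L] b) := h1
      _ ≤ θ ^ 2 * (θ ^ (2 * L) * dot b b) := h2
      _ = θ ^ (2 * (L + 1)) * dot b b := by ring

/-- **Symbol transfer.**  `e : B → (X → ℝ)` a family of vectors, `P` a class of vectors stable
under the symmetric map `Q`, on which the marginals `b_u = (⟨e β, u⟩)_β` satisfy the symbol
identity `b_{Q u} = Θ b_u`, where `Θ` is symmetric linear with `|⟨b, Θ b⟩| ≤ θ ⟨b, b⟩`.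
Then every `u` in the class which is a linear combination of the `e β` satisfies
`⟨u, Q u⟩ ≤ θ ⟨u, u⟩`. -/
theorem symbol_transfer (Q : (X → ℝ) → (X → ℝ)) (hQ : Symm Q)
    (Θ : (B → ℝ) →ₗ[ℝ] (B → ℝ)) (hΘ : Symm (⇑Θ)) (θ : ℝ) (hθ : 0 ≤ θ)
    (hq : ∀ b : B → ℝ, |dot b (Θ b)| ≤ θ * dot b b)
    (e : B → X → ℝ) (P : (X → ℝ) → Prop) (hPQ : ∀ u, P u → P (Q u))
    (hsym : ∀ u, P u → (fun β => dot (e β) (Q u)) = Θ (fun β => dot (e β) u))
    (u : X → ℝ) (hu : P u) (coef : B → ℝ) (hspan : u = fun x => ∑ β, coef β * e β x) :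
    dot u (Q u) ≤ θ * dot u u := by
  set bu : B → ℝ := fun β => dot (e β) u with hbu
  have hiter : ∀ L : ℕ, P (Q^[L] u) ∧
      (fun β => dot (e β) (Q^[L] u)) = (⇑Θ)^[L] bu := by
    intro L
    induction L with
    | zero => exact ⟨hu, rfl⟩
    | succ L ih =>
      rw [Function.iterate_succ_apply', Function.iterate_succ_apply']
      exact ⟨hPQ _ ih.1, by rw [hsym _ ih.1, ih.2]⟩
  set K := dot coef coef * dot bu bu with hK
  have hK0 : 0 ≤ K := mul_nonneg (dot_self_nonneg _) (dot_self_nonneg _)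
  apply quad_le_of_pow_bound hQ u θ (Real.sqrt K) hθ
  intro L
  have h1 : dot u (Q^[L] u) = dot coef ((⇑Θ)^[L] bu) := by
    have h0 := dot_sum_left coef e (Q^[L] u)
    rw [← hspan] at h0
    rw [h0, ← (hiter L).2]
    rfl
  rw [h1]
  have h2 := dot_sq_le coef ((⇑Θ)^[L] bu)
  have h3 := iterate_norm_bound Θ hΘ θ hθ hq bu L
  have h4 : (dot coef ((⇑Θ)^[L] bu)) ^ 2 ≤ (Real.sqrt K * θ ^ L) ^ 2 := by
    rw [mul_pow, Real.sq_sqrt hK0, hK]
    calc (dot coef ((⇑Θ)^[L] bu)) ^ 2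
        ≤ dot coef coef * dot ((⇑Θ)^[L] bu) ((⇑Θ)^[L] bu) := h2
      _ ≤ dot coef coef * (θ ^ (2 * L) * dot bu bu) :=
          mul_le_mul_of_nonneg_left h3 (dot_self_nonneg _)
      _ = dot coef coef * dot bu bu * (θ ^ L) ^ 2 := by ring
  have h5 : 0 ≤ Real.sqrt K * θ ^ L := mul_nonneg (Real.sqrt_nonneg _) (pow_nonneg hθ _)
  exact le_trans (le_abs_self _) (abs_le_of_sq_le_sq h4 h5)

end Symbol

/-! ### Orthogonal splitting and the filtration induction -/

/-- Orthogonal splitting along a submodule of `X → ℝ` (with respect to `dot`). -/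
theorem exists_orth_decomp (V : Submodule ℝ (X → ℝ)) (u : X → ℝ) :
    ∃ v ∈ V, ∀ z ∈ V, dot (u - v) z = 0 := by
  classical
  let φ : EuclideanSpace ℝ X ≃ₗ[ℝ] (X → ℝ) := WithLp.linearEquiv 2 ℝ (X → ℝ)
  let K : Submodule ℝ (EuclideanSpace ℝ X) := V.comap φ.toLinearMap
  obtain ⟨y, hy, z, hz, hyz⟩ := Submodule.exists_add_mem_mem_orthogonal (K := K) (φ.symm u)
  refine ⟨φ y, hy, ?_⟩
  intro t ht
  have hu : u = φ y + φ z := by
    have := congrArg φ hyz
    simpa using this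
  have h1 : u - φ y = φ z := by rw [hu]; simp
  rw [h1]
  have ht' : φ.symm t ∈ K := by
    show φ (φ.symm t) ∈ V
    simpa using ht
  have h2 := (Submodule.mem_orthogonal K z).1 hz (φ.symm t) ht'
  rw [PiLp.inner_apply] at h2
  unfold dot
  rw [← h2]
  apply Finset.sum_congr rfl
  intro x _
  simp [φ]

/-- **Filtration induction.**  `V 1 ≤ V 2 ≤ ... ≤ V m = ⊤` a filtration by submodules invariant
under the symmetric linear map `Q`.  If on every "pure level" (`u ∈ V (k+1)`, `u ⊥ V k`,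
`1 ≤ k < m`) one has `⟨u, Q u⟩ ≤ θ ⟨u, u⟩`, then the same holds for every `u ⊥ V 1`. -/
theorem quad_le_of_filtration (Q : (X → ℝ) →ₗ[ℝ] (X → ℝ)) (hQ : Symm (⇑Q))
    (V : ℕ → Submodule ℝ (X → ℝ)) (hmono : ∀ k, V k ≤ V (k + 1))
    (hinv : ∀ k, ∀ u ∈ V k, Q u ∈ V k) (m : ℕ) (hm : 1 ≤ m) (htop : V m = ⊤) (θ : ℝ)
    (hlevel : ∀ k, 1 ≤ k → k < m → ∀ u ∈ V (k + 1), (∀ v ∈ V k, dot u v = 0) →
      dot u (Q u) ≤ θ * dot u u) :
    ∀ u : X → ℝ, (∀ v ∈ V 1, dot u v = 0) → dot u (Q u) ≤ θ * dot u u := by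
  have hmono' : Monotone V := monotone_nat_of_le_succ hmono
  have key : ∀ k, 1 ≤ k → k ≤ m → ∀ u ∈ V k, (∀ v ∈ V 1, dot u v = 0) →
      dot u (Q u) ≤ θ * dot u u := by
    intro k hk
    induction k, hk using Nat.le_induction with
    | base =>
      intro _ u hu hperp
      have h0 : dot u u = 0 := hperp u hu
      have hu0 : u = 0 := dot_self_eq_zero.1 h0
      rw [hu0]
      simp
    | succ k hk ih =>
      intro hkm u hu hperp
      have hklt : k < m := hkm
      obtain ⟨v, hv, hw⟩ := exists_orth_decomp (V k) u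
      set w := u - v with hwdef
      have huvw : u = v + w := by rw [hwdef]; abel
      have hwmem : w ∈ V (k + 1) := Submodule.sub_mem _ hu (hmono k hv)
      have hvperp : ∀ z ∈ V 1, dot v z = 0 := by
        intro z hz
        have h1 : dot u z = 0 := hperp z hz
        have h2 : dot w z = 0 := hw z (hmono' hk hz)
        have h3 : dot u z = dot v z + dot w z := by rw [huvw, dot_add_left]
        linarith
      have hIH := ih hklt.le v hv hvperp
      have hL := hlevel k hk hklt w hwmem hw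
      have hQv : Q v ∈ V k := hinv k v hv
      have c1 : dot w (Q v) = 0 := hw _ hQv
      have c2 : dot v (Q w) = 0 := by
        rw [← hQ v w, dot_comm]
        exact c1
      have c3 : dot w v = 0 := hw v hv
      have c4 : dot v w = 0 := by rw [dot_comm]; exact c3
      have e1 : dot u (Q u) = dot v (Q v) + dot w (Q w) := by
        rw [huvw, map_add, dot_add_left, dot_add_right, dot_add_right, c1, c2]
        ring
      have e2 : dot u u = dot v v + dot w w := by
        rw [huvw, dot_add_left, dot_add_right, dot_add_right, c3, c4]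
        ring
      rw [e1, e2]
      linarith
  intro u hperp
  exact key m hm le_rfl u (by rw [htop]; trivial) hperp

/-- **Schema for Lemma A.**  Combination of `symbol_transfer` and `quad_le_of_filtration`:
a `Q`-invariant filtration `V 1 ≤ ... ≤ V m = ⊤`, for each level `k + 1` (`1 ≤ k < m`) a family
`e (k+1) : B (k+1) → (X → ℝ)` spanning `V (k+1)` and a symmetric linear symbol `Θ (k+1)` with
`|⟨b, Θ b⟩| ≤ θ ⟨b, b⟩`, such that the marginals of pure level-`(k+1)` vectors satisfy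
`b_{Q u} = Θ b_u`.  Then `⟨u, Q u⟩ ≤ θ ⟨u, u⟩` for all `u ⊥ V 1`. -/
theorem lemmaA_schema (Q : (X → ℝ) →ₗ[ℝ] (X → ℝ)) (hQ : Symm (⇑Q))
    (V : ℕ → Submodule ℝ (X → ℝ)) (hmono : ∀ k, V k ≤ V (k + 1))
    (hinv : ∀ k, ∀ u ∈ V k, Q u ∈ V k) (m : ℕ) (hm : 1 ≤ m) (htop : V m = ⊤)
    (θ : ℝ) (hθ : 0 ≤ θ)
    (B : ℕ → Type*) [∀ k, Fintype (B k)] (e : ∀ k, B k → X → ℝ)
    (Θ : ∀ k, (B k → ℝ) →ₗ[ℝ] (B k → ℝ))
    (hΘ : ∀ k, 1 ≤ k → k < m → Symm (⇑(Θ (k + 1))))
    (hq : ∀ k, 1 ≤ k → k < m → ∀ b : B (k + 1) → ℝ,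
      |dot b (Θ (k + 1) b)| ≤ θ * dot b b)
    (hspan : ∀ k, 1 ≤ k → k < m → V (k + 1) ≤ Submodule.span ℝ (Set.range (e (k + 1))))
    (hsym : ∀ k, 1 ≤ k → k < m → ∀ u ∈ V (k + 1), (∀ v ∈ V k, dot u v = 0) →
      (fun β => dot (e (k + 1) β) (Q u)) = Θ (k + 1) (fun β => dot (e (k + 1) β) u)) :
    ∀ u : X → ℝ, (∀ v ∈ V 1, dot u v = 0) → dot u (Q u) ≤ θ * dot u u := by
  apply quad_le_of_filtration Q hQ V hmono hinv m hm htop θ
  intro k hk hkm u hu hperp
  have hmem := hspan k hk hkm hu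
  obtain ⟨coef, hcoef⟩ := (Submodule.mem_span_range_iff_exists_fun ℝ).1 hmem
  refine symbol_transfer (⇑Q) hQ (Θ (k + 1)) (hΘ k hk hkm) θ hθ (hq k hk hkm) (e (k + 1))
    (fun u => u ∈ V (k + 1) ∧ ∀ v ∈ V k, dot u v = 0) ?_ ?_ u ⟨hu, hperp⟩ coef ?_
  · rintro u ⟨hu1, hu2⟩
    refine ⟨hinv (k + 1) u hu1, ?_⟩
    intro v hv
    rw [hQ u v]
    exact hu2 _ (hinv k v hv)
  · rintro u ⟨hu1, hu2⟩
    exact hsym k hk hkm u hu1 hu2
  · rw [← hcoef]
    funext x
    simp [Finset.sum_apply]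

end Crest.Agent.Helper72.Shuffle
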